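import Crest.Agent.X212.Rod19.Mod
import Crest.Agent.X212.Lns95.Dsc

/-!
# X212 / Rod19, part Main (helper19): the half disc around a rod is a region of `O(-n)` (`RodStmt`)
-/

set_option autoImplicit false
set_option linter.unusedSectionVars false

open Set Filter Topology Function
open scoped ContDiff Manifold
open Crest.Agent.R208.F (Ext)
open Crest.Agent.X212.Glue52 Crest.Agent.X212.Rod53 Crest.Agent.X212.Orx52 Crest.Agent.X212.Lns95
open Crest.Agent.X212.Line51 (chi off dual dot dual_left dual_right chi_rod0 chi_ext chT_gl chi_add chi_smul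
  dot_add isOpen_off)

noncomputable section

namespace Crest.Agent.X212.Rod19

variable {l R : ℝ}

theorem tz_zero (hl : 0 < l) (h : l < R) {z : ℂ × ℂ} (e : z.1 = 0) : tz l R z = 0 := by
  have h1 : l ≤ -tm (-l) z := by
    rw [tm, e, norm_zero]
    nlinarith [sq_nonneg ‖z.2‖]
  rw [tz, tt, AA_eq hl h (YY_nonneg z) h1 (abs_of_nonpos (by linarith)).le, neg_add_cancel, zero_div]
  rw [GG, neg_sq, div_self (pow_ne_zero 2 (by linarith)), YY, e]
  simp

theorem Az_zero (hl : 0 < l) (h : l < R) {z : ℂ × ℂ} (hz : z ∈ UU l) (e : z.2 = 0) : Az l R z = l :=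
  (A1_spec hl h (ev_A1 h hz e).self_of_nhds).1.trans (A1_zero hz e)

theorem FF_eq (hl : 0 < l) (h : l < R) {z : ℂ × ℂ} (hz : z ∈ UU l) {α β : Circle} (h1 : z.1 ≠ 0 → α = dir z.1)
    (h2 : z.2 ≠ 0 → β = dir z.2) : ((√(tz l R z) : ℝ) * (α : ℂ), (√(Az l R z - l) : ℝ) * (β : ℂ)) = FF l R z := by
  refine Prod.ext ?_ ?_
  · by_cases e : z.1 = 0
    · simp [FF, tz_zero hl h e]
    · rw [h1 e, FF]
  · by_cases e : z.2 = 0
    · simp [FF, Az_zero hl h hz e]
    · rw [h2 e, FF]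

theorem AA_le (hl : 0 < l) (h : l < R) {x Y : ℝ} (hY : 0 ≤ Y) (e : √(x ^ 2 + Y) ≤ R) : AA l R x Y ≤ R := by
  have h0 : 0 < R := hl.trans h
  rw [Real.sqrt_le_left h0.le] at e
  refine le_of_not_gt fun k => ?_
  have := GG_lt hl h (x := x) h.le (abs_le.2 (abs_le_of_sq_le_sq' (by linarith) h0.le)) k
  rw [(AA_spec hl h x hY).2.2, GG, EE_large h le_rfl, mul_sub, mul_one, mul_div_cancel₀ _ (by positivity)] at this
  linarith

theorem le_AA (hl : 0 < l) (h : l < R) {x Y : ℝ} (hY : 0 ≤ Y) : √(x ^ 2 + Y) ≤ AA l R x Y := by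
  obtain ⟨k1, k2, k3⟩ := AA_spec hl h x hY
  generalize AA l R x Y = A at *
  have h0 : 0 < A := hl.trans_le k1
  have h1 : EE l R A ≤ A ^ 2 := by
    have := mul_le_mul_of_nonneg_left (Real.smoothTransition.le_one ((2 * A - l - R) / (R - l))) (sq_nonneg l)
    rw [EE]
    linarith
  have := mul_le_mul_of_nonneg_right h1 (sub_nonneg.2 ((div_le_one (pow_pos h0 2)).2
    (sq_le_sq.2 (k2.trans (le_abs_self _)))))
  rw [← GG, k3, mul_sub, mul_one, mul_div_cancel₀ _ (by positivity)] at this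
  rw [Real.sqrt_le_left h0.le]
  linarith

theorem ch_of {M : Type} [TopologicalSpace M] [ChartedSpace E4 M] [IsManifold (𝓡 4) ∞ M] (hl : 0 < l) (h : l < R)
    {g : ℂ × ℂ → M} {W : Set (ℂ × ℂ)} (hW : IsOpen W) (hg : ∀ z ∈ W, IsLocalDiffeomorphAt IV (𝓡 4) ∞ g z)
    {o : M → Ext E4} (ho : Pos IV (𝓡 4) g W oV o) {O : Set M} (hO : IsOpen O) (h1 : O ⊆ g '' W) {u w : M → ℂ}
    (h2 : ∀ z ∈ W, g z ∈ O → z ∈ UU l ∧ (u (g z), w (g z)) = FF l R z) : Ch (𝓡 4) o O u w := by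
  have op : IsOpen (W ∩ g ⁻¹' O) := ContinuousOn.isOpen_inter_preimage
    (fun z hz => (hg z hz).contMDiffAt.continuousAt.continuousWithinAt) hW hO
  have e : EqOn ((fun y => (u y, w y)) ∘ g) (FF l R) (W ∩ g ⁻¹' O) := fun z hz => (h2 z hz.1 hz.2).2
  have ld : ∀ z ∈ W ∩ g ⁻¹' O, IsLocalDiffeomorphAt (𝓡 4) IV ∞ (fun y => (u y, w y)) (g z) := fun z hz =>
    Glue52.ld_of_comp (hg z hz.1) (Glue52.ld_congr (ld_FF hl h (h2 z hz.1 hz.2).1)
      (eventually_of_mem (op.mem_nhds hz) e))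
  refine ⟨hO, fun y hy => ?_, fun y hy => ?_, fun y hy => ?_, ?_⟩
  · obtain ⟨z, hz, rfl⟩ := h1 hy
    exact contDiffAt_fst.comp_contMDiffAt (ld z ⟨hz, hy⟩).contMDiffAt
  · obtain ⟨z, hz, rfl⟩ := h1 hy
    exact contDiffAt_snd.comp_contMDiffAt (ld z ⟨hz, hy⟩).contMDiffAt
  · obtain ⟨z, hz, rfl⟩ := h1 hy
    have k := norm_FF1 hl h z
    rw [← (h2 z hz hy).2] at k
    exact (pow_lt_one_iff_of_nonneg (norm_nonneg _) two_ne_zero).1 (k.trans_lt (tz_lt hl h (h2 z hz hy).1))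
  · refine ((((pos_FF hl h).mono fun z hz => (h2 z hz.1 hz.2).1).congr op e).of_comp (ho.mono inter_subset_left)
      ld fun z hz => hg z hz.1).mono fun y hy => ?_
    obtain ⟨z, hz, rfl⟩ := h1 hy
    exact ⟨z, ⟨hz, hy⟩, rfl⟩

variable {EN HN : Type} [NormedAddCommGroup EN] [NormedSpace ℝ EN] [FiniteDimensional ℝ EN]
  [TopologicalSpace HN] {IN : ModelWithCorners ℝ EN HN} [IN.Boundaryless]
  {N : Type} [TopologicalSpace N] [ChartedSpace HN N] [IsManifold IN ∞ N] [T2Space N]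
  {T : Tb IN N} {v : ℝ → Z2} {a a' b η : Z2} {c : ℝ} {z : ℂ × ℂ} {p : X T v}

theorem dot_smul (η a : Z2) (k : ℤ) : dot (k • η) a = k * dot η a := by simp [dot]; ring

theorem dot_comb (η a b : Z2) (k m : ℤ) : dot η (k • a + m • b) = k * dot η a + m * dot η b := by
  simp [dot]; ring

theorem dot_sub' (η a b : Z2) (k : ℤ) : dot η (k • a - b) = k * dot η a - dot η b := by simp [dot]; ring

theorem chi_rn0 (h : LH a b) {w : (Circle × ℂ) × ℝ} (hw : w ∈ Ur v a) (e : dot η a = 0) :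
    chi T v η (T.rn v a b w) = w.1.1 ^ dot η b := by
  obtain ⟨a', n, m, hu, -, rfl⟩ := Tb.exists_cv h
  rw [T.rn_cv hu n m hw, chi_rod0 hu (Tb.cv_mem hw) e, dot_comb, e, mul_zero, add_zero, zpow_mul]
  rfl

theorem chi_vnL (h : LH a b) (hz : z ∈ Uv v a b c) (h2 : z.2 ≠ 0) (e : dot η a = 0) :
    chi T v η (T.vn v a b c z) = dir z.2 ^ dot η b := by
  rw [T.vn_L h2, chi_rn0 h (hL_mem hz h2) e]
  rfl

theorem chi_vnR (h : LH a b) (hz : z ∈ Uv v a b c) (h1 : z.1 ≠ 0) (e : dot η b = 0) :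
    chi T v η (T.vn v a b c z) = dir z.1 ^ dot η a := by
  rw [T.vn_R h1, chi_rn0 h.symm (hR_mem hz h1) e]
  rfl

theorem chi_vn (h1 : z.1 ≠ 0) (h2 : z.2 ≠ 0) :
    chi T v η (T.vn v a b c z) = dir z.1 ^ dot η a * dir z.2 ^ dot η b := by
  have k : (hR c z).1.2 ≠ 0 := mt (hR_ne h1).1 h2
  rw [T.vn_R h1, T.rn_eq_ext k, chi_ext (gl_ne.2 k), chT_gl _ _ _ k, mul_comm]
  exact congrArg (fun t => _ * t ^ dot η b) (dir_pos_mul (mul_pos two_pos (norm_pos_iff.2 h1)) _)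

theorem off_iff (h : p ∈ T.tor v) : p ∈ off T v ↔ T.yy v p ≠ 0 := by
  obtain ⟨h1, h2⟩ := T.eta_of_tor h
  rw [off, mem_ofPred_eq, h2, inv_lt_one₀ (by positivity), lt_add_iff_pos_right]
  exact ⟨ne_of_gt, fun k => h1.lt_of_ne' k⟩

theorem mem_img (hu : Rod53.Uni a b) {r d : ℝ} (h : p ∈ T.disc v c (Iio r))
    (k : p ∈ off T v ∨ (c - r < T.time v p → T.time v p < c + r → T.time v p ∈ Jv v a b d)) :
    p ∈ T.vtx v hu d '' Uv v a b d := by
  have := abs_lt.1 ((T.abs_time_le c p).trans_lt h.2)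
  exact T.mem_vtx hu h.1 (k.imp (off_iff h.1).1 fun e => e (by linarith [this.1]) (by linarith [this.2]))

theorem rodStmt : RodStmt := by
  intro T v a a' n c l ρ h o O hd A hm hl hρ hL hR ox hτ
  have hr : l < ρ (-3) := hρ _
  have u1 : Rod53.Uni a a' := Or.inl hd
  have hd' : dt a' ((n : ℤ) • a' - a) = 1 := by
    simp only [dt, Prod.fst_sub, Prod.snd_sub, Prod.smul_fst, Prod.smul_snd, smul_eq_mul] at hd ⊢
    linear_combination hd
  have u2 : Rod53.Uni a' ((n : ℤ) • a' - a) := Or.inl hd'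
  obtain ⟨η, hη⟩ : ∃ η, η = dual a a' 1 0 := ⟨_, rfl⟩
  obtain ⟨ζ, hζ⟩ : ∃ η, η = dual a a' 0 1 := ⟨_, rfl⟩
  have d1 : dot η a = 1 := hη ▸ dual_left u1 _ _
  have d2 : dot η a' = 0 := hη ▸ dual_right u1 _ _
  have d3 : dot ζ a = 0 := hζ ▸ dual_left u1 _ _
  have d4 : dot ζ a' = 1 := hζ ▸ dual_right u1 _ _
  have d5 : dot η ((n : ℤ) • a' - a) = -1 := by simp only [dot_sub', d1, d2]; ring
  have d6 : dot ζ ((n : ℤ) • a' - a) = n := by simp only [dot_sub', d3, d4]; ring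
  have d7 : dot (ζ + (n : ℤ) • η) a = n := by simp only [dot_add, dot_smul, d1, d3]; ring
  have d8 : dot (ζ + (n : ℤ) • η) a' = 1 := by simp only [dot_add, dot_smul, d2, d4]; ring
  have d9 : dot (ζ + (n : ℤ) • η) ((n : ℤ) • a' - a) = 0 := by simp only [dot_add, dot_smul, d5, d6]; ring
  rw [← hη, ← hζ]
  let t : X T v → ℝ := fun p => tt l (ρ (-3)) (T.time v p - c) (T.yy v p ^ 2)
  let s : X T v → ℝ := fun p => AA l (ρ (-3)) (T.time v p - c) (T.yy v p ^ 2) - l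
  let Q : Bool → Set (X T v) := fun b => T.disc v c (Iio (ρ 0)) ∩
    {p | p ∈ off T v ∨ cond b (c - l < T.time v p) (T.time v p < c + l)}
  let u : Bool → X T v → ℂ := fun b p =>
    cond b ((√(1 - t p) : ℝ) * ((chi T v η p)⁻¹ : Circle)) ((√(t p) : ℝ) * chi T v η p)
  let w : Bool → X T v → ℂ := fun b p => (√(s p) : ℝ) * chi T v (cond b (ζ + (n : ℤ) • η) ζ) p
  have op : ∀ b, IsOpen (Q b) := fun b => (T.isOpen_disc isOpen_Iio).inter (isOpen_off.union (by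
    cases b
    exacts [isOpen_lt T.continuous_time continuous_const, isOpen_lt continuous_const T.continuous_time]))
  have ps : ∀ {a b : Z2} (hu : Rod53.Uni a b) d, dt a b = 1 → Pos IV (𝓡 4) (T.vtx v hu d) (Uv v a b d) oV (-O) :=
    fun hu d e => by simpa [e, pos_neg_left] using ox.vtx hτ hu d
  have ch : ∀ b, Ch (𝓡 4) (-O) (Q b) (u b) (w b) := by
    rintro (_ | _)
    · refine ch_of hl hr isOpen_Uv (fun _ => ldp (T.vtx v u1 (c - l))) (ps u1 _ hd) (op false)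
        (fun p hp => mem_img u1 hp.1 (hp.2.imp_right fun k e _ => hL _ e k)) fun z hz hp => ?_
      have e1 : T.time v (T.vtx v u1 (c - l) z) - c = tm (-l) z := by
        rw [T.time_vtx u1 hz, tm, tm]; ring
      have hU : z ∈ UU l := hp.2.elim (fun k => Or.inl ((T.eta_vtx u1 hz).1 k).2) fun k =>
        (em _).symm.imp_right fun e : z.2 = 0 => by
          rw [tm, e, norm_zero] at e1
          linarith [show T.time v _ < c + l from k]
      refine ⟨hU, Eq.trans ?_ (FF_eq hl hr hU (α := chi T v η (T.vtx v u1 (c - l) z))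
        (β := chi T v ζ (T.vtx v u1 (c - l) z)) (fun k => ?_) fun k => ?_)⟩
      · simp only [u, w, t, s, cond, e1, T.yy_vtx u1 hz, tz, Az, YY]
      · rw [← T.vn_eq_vtx u1 hz, chi_vnR u1.lh hz k d2, d1, zpow_one]
      · rw [← T.vn_eq_vtx u1 hz, chi_vnL u1.lh hz k d3, d4, zpow_one]
    · have sw := fun z => ld_clm (ContinuousLinearEquiv.prodComm ℝ ℂ ℂ) z
      refine ch_of hl hr (g := T.vtx v u2 (c + l) ∘ Prod.swap) (isOpen_Uv.preimage continuous_swap)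
        (fun z hz => (sw z).comp _ _ (ldp (T.vtx v u2 (c + l)) hz))
        ((ps u2 _ hd').comp (pos_swap _) (fun _ => ldp (T.vtx v u2 (c + l))) (fun z _ => sw z) fun _ k => k)
        (op true) (fun p hp => ?_) fun z hz hp => ?_
      · obtain ⟨z, hz, rfl⟩ := mem_img u2 hp.1 (hp.2.imp_right fun k _ e => hR _ k e)
        exact ⟨z.swap, hz, rfl⟩
      have e1 : T.time v (T.vtx v u2 (c + l) z.swap) - c = -tm (-l) z := by
        rw [T.time_vtx u2 hz, tm, tm, Prod.fst_swap, Prod.snd_swap]; ring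
      have e2 : T.yy v (T.vtx v u2 (c + l) z.swap) ^ 2 = YY z := by
        rw [T.yy_vtx u2 hz, YY, Prod.fst_swap, Prod.snd_swap]; ring
      have hU : z ∈ UU l := hp.2.elim (fun k => Or.inl ((T.eta_vtx u2 hz).1 k).1) fun k =>
        (em _).symm.imp_right fun e : z.2 = 0 => by
          rw [tm, e, norm_zero] at e1
          linarith [show c - l < T.time v (T.vtx v u2 (c + l) z.swap) from k]
      refine ⟨hU, Eq.trans ?_ (FF_eq hl hr hU (α := (chi T v η (T.vtx v u2 (c + l) z.swap))⁻¹)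
        (β := chi T v (ζ + (n : ℤ) • η) (T.vtx v u2 (c + l) z.swap)) (fun k => ?_) fun k => ?_)⟩
      · simp only [u, w, t, s, cond, comp_apply, e1, e2, tz, Az, AA_neg, tt_neg hl hr _ (YY_nonneg z),
          sub_sub_cancel]
      · rw [← T.vn_eq_vtx u2 hz, chi_vnL u2.lh hz k d2, d5, zpow_neg_one, inv_inv, Prod.snd_swap]
      · rw [← T.vn_eq_vtx u2 hz, chi_vnR u2.lh hz k d9, d8, zpow_one, Prod.fst_swap]
  have t0 : ∀ p, 0 ≤ t p := fun p => tt_nonneg hl hr _ (sq_nonneg _)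
  have t1 : ∀ p, 0 ≤ 1 - t p := fun p => tt_neg hl hr _ (sq_nonneg (T.yy v p)) ▸ tt_nonneg hl hr _ (sq_nonneg _)
  have t2 : ∀ p ∈ Q false ∩ Q true, 0 < √(t p) ∧ 0 < √(1 - t p) := fun p hp => by
    have k1 := (pow_lt_one_iff_of_nonneg (norm_nonneg _) two_ne_zero).2 ((ch _).lt p hp.1)
    have k2 := (pow_lt_one_iff_of_nonneg (norm_nonneg _) two_ne_zero).2 ((ch _).lt p hp.2)
    simp only [u, cond, norm_sqrt_dir (t0 p), norm_sqrt_dir (t1 p)] at k1 k2
    exact ⟨Real.sqrt_pos.2 (by linarith), Real.sqrt_pos.2 (by linarith)⟩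
  have s0 : ∀ b p, ‖w b p‖ ^ 2 = s p := fun b p => norm_sqrt_dir (sub_nonneg.2 (AA_spec hl hr _ (sq_nonneg _)).1) _
  have ne : ∀ {r : ℝ} (α : Circle), 0 < r → (r : ℂ) * α ≠ 0 := fun α k =>
    mul_ne_zero (Complex.ofReal_ne_zero.2 k.ne') α.coe_ne_zero
  refine ⟨⟨Q, u, w, ch, fun p => ⟨fun k => (lt_or_ge (T.time v p) (c + l)).elim (fun e => ⟨false, k, Or.inr e⟩)
    fun e => ⟨true, k, Or.inr (show c - l < _ by linarith)⟩, fun ⟨_, k⟩ => k.1⟩, ?_, fun p _ => ?_,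
    fun p hp => (dir_mul (t2 p hp).2 _).trans (congrArg _ (dir_mul (t2 p hp).1 _).symm), fun p hp => ?_⟩,
    ⟨?_, fun s => sub_pos.2 (hρ s), fun b y r hs hy => ?_, fun b p hp k => ?_, fun b q _ => ?_⟩, fun _ => Iff.rfl, fun _ => Iff.rfl, fun p hp k => ?_⟩
  · rintro (_ | _) p hp
    exacts [ne _ (t2 p hp).1, ne _ (t2 p hp).2]
  · simp only [u, cond, norm_sqrt_dir (t0 p), norm_sqrt_dir (t1 p), add_sub_cancel]
  · simp only [u, w, cond, dir_mul (t2 p hp).1]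
    by_cases k : p ∈ off T v
    · rw [chi_add k, chi_smul k, zpow_natCast, Circle.coe_mul, mul_assoc]
    · have k1 : T.time v p < c + l := hp.1.2.resolve_left k
      have k2 : c - l < T.time v p := hp.2.2.resolve_left k
      have k3 : s p = 0 := sub_eq_zero.2 (AA_eq hl hr (sq_nonneg _) le_rfl (abs_le.2 ⟨by linarith, by linarith⟩) (by
        rw [GG, EE_self hr, zero_mul, not_not.1 (mt (off_iff hp.1.1.1).2 k), zero_pow two_ne_zero]))
      simp [k3]
  · exact (Cyl58.Up.add_const (-l) univ).comp (Cyl58.Up.of_isOE A.oe hm.monotone) (mapsTo_univ _ _)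
  · have r0 := A.pos r
    have r1 := Real.sqrt_pos.2 r0
    have hz := A.mem_Uv (y, r)
    obtain ⟨k1, k2, k3⟩ := T.vn_spec h hz (A.ne (y, r))
    have k4 := T.rr_lc h A (y, r)
    have k5 := norm_L4 (y : E4)
    rw [norm_eq_of_mem_sphere] at k5
    simp only [T.lb_cov h A, Tb.lc, map_smul, Th] at hz k1 k2 k3 k4 hy ⊢
    generalize L4 (y : E4) = q at *
    have n1 : ‖(√(ρ r) • q).1‖ = √(ρ r) * ‖q.1‖ := by rw [Prod.smul_fst, norm_smul, Real.norm_of_nonneg r1.le]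
    have n2 : ‖(√(ρ r) • q).2‖ = √(ρ r) * ‖q.2‖ := by rw [Prod.smul_snd, norm_smul, Real.norm_of_nonneg r1.le]
    have n3 : dir (√(ρ r) • q).1 = dir q.1 := dir_pos_mul r1 _
    have n4 : dir (√(ρ r) • q).2 = dir q.2 := dir_pos_mul r1 _
    have n5 : q.1 ≠ 0 → (√(ρ r) • q).1 ≠ 0 := smul_ne_zero r1.ne'
    have n6 : q.2 ≠ 0 → (√(ρ r) • q).2 ≠ 0 := smul_ne_zero r1.ne'
    have c1 := fun k k' => chi_vn (T := T) (v := v) (a := a) (b := (n : ℤ) • a' - a) (c := c) (η := η) (n5 k) (n6 k')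
    have c2 := fun k => chi_vnL (T := T) h hz (n6 k) d3
    have c3 := fun k => chi_vnR (T := T) h hz (n5 k) d9
    rw [tm, n1, n2, mul_pow, mul_pow, Real.sq_sqrt r0.le] at k2
    rw [n1, n2] at k3
    simp only [n3, n4, d1, d5, d6, d7, zpow_one, zpow_neg, zpow_natCast] at c1 c2 c3
    generalize T.vn v a ((n : ℤ) • a' - a) c (√(ρ r) • q) = p at *
    have e1 : AA l (ρ (-3)) (T.time v p - c) (T.yy v p ^ 2) = ρ r := by
      refine AA_large hl hr (sq_nonneg _) (hm hs.1).le ?_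
      rw [← k4, Tb.rr, Real.sq_sqrt (by positivity)]
    have e2 : t p = ‖q.1‖ ^ 2 := by
      simp only [t, tt, e1]
      rw [k2]
      field_simp
      linear_combination (-ρ r) * k5
    have e3 : 1 - t p = ‖q.2‖ ^ 2 := by linarith
    have e4 : p ∈ T.disc v c (Iio (ρ 0)) := ⟨k1, k4.trans_lt (hm hs.2)⟩
    have e5 : q.1 ≠ 0 → q.2 ≠ 0 → p ∈ off T v := fun j1 j2 => (off_iff k1).2 (by
      have := norm_pos_iff.2 j1
      have := norm_pos_iff.2 j2
      rw [k3]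
      positivity)
    have e6 := mul_nonneg r0.le (sq_nonneg ‖q.1‖)
    have e7 := mul_nonneg r0.le (sq_nonneg ‖q.2‖)
    cases b
    · refine ⟨⟨e4, (em (q.1 = 0)).symm.imp (e5 · hy) fun j => show _ < _ by rw [k2, j]; simp; linarith⟩, ?_, ?_⟩
      · simp only [u, cond, e2, Real.sqrt_sq (norm_nonneg _)]
        by_cases j : q.1 = 0
        · simp [j]
        · rw [c1 j hy, Circle.coe_mul, ← mul_assoc, norm_mul_dir]
      · simp only [w, s, cond, e1, c2 hy]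
    · refine ⟨⟨e4, (em (q.2 = 0)).symm.imp (e5 hy) fun j => show _ < _ by rw [k2, j]; simp; linarith⟩, ?_, ?_⟩
      · simp only [u, cond, e3, Real.sqrt_sq (norm_nonneg _), Prod.fst_swap, Prod.snd_swap]
        by_cases j : q.2 = 0
        · simp [j]
        · rw [c1 hy j, mul_inv, inv_inv, mul_comm _⁻¹, Circle.coe_mul, ← mul_assoc, norm_mul_dir]
      · simp only [w, s, cond, e1, c3 hy, Prod.snd_swap]
  · refine (s0 _ _).trans_le (sub_le_sub_right (AA_le hl hr (sq_nonneg _) (le_of_not_gt fun e => k ?_)) l)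
    rw [T.image_lb h A]
    exact ⟨hp.1.1, intermediate_value_Ioo (by norm_num) A.oe.continuous.continuousOn ⟨e, hp.1.2⟩⟩
  · exact (sub_le_sub_right ((T.rr_lb h A q).ge.trans (le_AA hl hr (sq_nonneg _))) l).trans (s0 _ _).ge
  · have hq : p ∈ Q false ∩ Q true := ⟨⟨hp, Or.inl k⟩, hp, Or.inl k⟩
    obtain ⟨k1, -, k3⟩ := AA_spec hl hr (T.time v p - c) (sq_nonneg (T.yy v p))
    have k4 : 0 < √(s p) := Real.sqrt_pos.2 (sub_pos.2 (k1.lt_of_ne fun e => by
      rw [← e, GG, EE_self hr, zero_mul, eq_comm, sq_eq_zero_iff] at k3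
      exact (off_iff hp.1).1 k k3))
    refine ⟨fun b => ⟨?_, ne _ k4⟩, dir_mul (t2 p hq).1 _, dir_mul k4 _⟩
    cases b
    exacts [ne _ (t2 p hq).1, ne _ (t2 p hq).2]

end Crest.Agent.X212.Rod19
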