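import Crest.Agent.X212.Orx52.Rod

/-!
# X212 / Rod19, part Mod (helper19): coordinates interpolating between prolate and polar ones

* `EE l R A` is `A² - l²` for small `A` and `A²` for `R ≤ A`; `AA l R x Y` is the root `A ≥ max l |x|` of
  `EE A * (1 - x² / A²) = Y`;
* `FF l R : ℂ × ℂ → ℂ × ℂ` : the chart `(u, w)`, `|u|² = (A + x) / 2 A`, `|w|² = A - l`, in a vertex chart;
  it is a positive local diffeomorphism on `UU l`.
-/

set_option autoImplicit false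
set_option linter.unusedSectionVars false

open Set Filter Topology Function
open scoped ContDiff Manifold
open Crest.Agent.R208 Crest.Agent.R208.F Crest.Agent.R208.FI Crest.Agent.X212.Dr59
open Crest.Agent.X212.Glue52 Crest.Agent.X212.Rod53 Crest.Agent.X212.Orx52

noncomputable section

namespace Crest.Agent.X212.Rod19

/-- the square of the small half axis -/
def EE (l R A : ℝ) : ℝ := A ^ 2 - l ^ 2 + l ^ 2 * Real.smoothTransition ((2 * A - l - R) / (R - l))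

/-- the square of the height -/
def GG (l R x A : ℝ) : ℝ := EE l R A * (1 - x ^ 2 / A ^ 2)

/-- the large half axis -/
def AA (l R x Y : ℝ) : ℝ := Classical.epsilon fun A => l ≤ A ∧ |x| ≤ A ∧ GG l R x A = Y

variable {l R x Y A B : ℝ}

theorem EE_small (h : l < R) (hA : A ≤ (l + R) / 2) : EE l R A = A ^ 2 - l ^ 2 := by
  rw [EE, Real.smoothTransition.zero_of_nonpos (div_nonpos_of_nonpos_of_nonneg (by linarith) (by linarith)),
    mul_zero, add_zero]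

theorem EE_large (h : l < R) (hA : R ≤ A) : EE l R A = A ^ 2 := by
  rw [EE, Real.smoothTransition.one_of_one_le ((one_le_div (by linarith)).2 (by linarith))]
  ring

theorem cd_EE (l R : ℝ) : ContDiff ℝ ∞ (EE l R) :=
  ((contDiff_id.pow 2).sub contDiff_const).add
    (contDiff_const.mul (Real.smoothTransition.contDiff.comp (by fun_prop)))

theorem mono_σ (h : l < R) : Monotone fun A : ℝ => Real.smoothTransition ((2 * A - l - R) / (R - l)) :=
  fun _ _ k => Real.smoothTransition.monotone (div_le_div_of_nonneg_right (by linarith) (by linarith))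

theorem EE_lt (h : l < R) (h0 : 0 ≤ A) (k : A < B) : EE l R A < EE l R B :=
  add_lt_add_of_lt_of_le (by nlinarith) (mul_le_mul_of_nonneg_left (mono_σ h k.le) (sq_nonneg _))

theorem EE_self (h : l < R) : EE l R l = 0 := by rw [EE_small h (by linarith), sub_self]

theorem EE_pos (hl : 0 < l) (h : l < R) (k : l < A) : 0 < EE l R A := EE_self h ▸ EE_lt h hl.le k

theorem EE_nonneg (hl : 0 < l) (h : l < R) (k : l ≤ A) : 0 ≤ EE l R A :=
  k.eq_or_lt.elim (fun e => e ▸ (EE_self h).ge) fun e => (EE_pos hl h e).le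

theorem deriv_EE (h : l < R) (A : ℝ) : ∃ d, 2 * A ≤ d ∧ HasDerivAt (EE l R) d A := by
  have h1 : Differentiable ℝ fun A : ℝ => Real.smoothTransition ((2 * A - l - R) / (R - l)) :=
    (Real.smoothTransition.contDiff (n := 1)).differentiable one_ne_zero |>.comp (by fun_prop)
  refine ⟨_, ?_, (((hasDerivAt_id' A).fun_pow 2).sub_const _).fun_add ((h1 A).hasDerivAt.const_mul _)⟩
  have := mul_nonneg (sq_nonneg l) ((mono_σ h).deriv_nonneg (x := A))
  simpa using this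

theorem GG_lt (hl : 0 < l) (h : l < R) (h1 : l ≤ A) (h2 : |x| ≤ A) (k : A < B) : GG l R x A < GG l R x B := by
  have a0 : 0 < A := hl.trans_le h1
  have h3 : x ^ 2 / B ^ 2 ≤ x ^ 2 / A ^ 2 := div_le_div_of_nonneg_left (sq_nonneg _) (by positivity) (by nlinarith)
  have h4 : x ^ 2 / B ^ 2 < 1 := (div_lt_one (by nlinarith)).2 (sq_lt_sq.2 ((h2.trans_lt k).trans_le (le_abs_self _)))
  exact (mul_le_mul_of_nonneg_left (by linarith) (EE_nonneg hl h h1)).trans_lt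
    (mul_lt_mul_of_pos_right (EE_lt h a0.le k) (by linarith))

theorem AA_spec (hl : 0 < l) (h : l < R) (x : ℝ) (hY : 0 ≤ Y) :
    l ≤ AA l R x Y ∧ |x| ≤ AA l R x Y ∧ GG l R x (AA l R x Y) = Y := by
  refine Classical.epsilon_spec (p := fun A => l ≤ A ∧ |x| ≤ A ∧ GG l R x A = Y) ?_
  have h0 := abs_nonneg x
  have h1 : max l |x| ≤ R + 1 + |x| + Y := max_le (by linarith) (by linarith)
  have h2 : ContinuousOn (GG l R x) (Icc (max l |x|) (R + 1 + |x| + Y)) :=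
    (cd_EE l R).continuous.continuousOn.mul (continuousOn_const.sub (continuousOn_const.div (by fun_prop)
      fun A hA => pow_ne_zero 2 (hl.trans_le ((le_max_left _ _).trans hA.1)).ne'))
  obtain ⟨A, hA, e⟩ := intermediate_value_Icc h1 h2 (show Y ∈ _ from ⟨by
    rcases max_cases l |x| with k | k <;> rw [k.1, GG]
    · rwa [EE_self h, zero_mul]
    · rwa [sq_abs, div_self (sq_abs x ▸ pow_ne_zero 2 (hl.trans k.2).ne'), sub_self, mul_zero], by
    rw [GG, EE_large h (by linarith), mul_sub, mul_one, mul_div_cancel₀ _ (pow_pos (by linarith) 2).ne', ← sq_abs x]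
    nlinarith⟩)
  exact ⟨A, (le_max_left _ _).trans hA.1, (le_max_right _ _).trans hA.1, e⟩

theorem AA_eq (hl : 0 < l) (h : l < R) (hY : 0 ≤ Y) (h1 : l ≤ A) (h2 : |x| ≤ A) (e : GG l R x A = Y) :
    AA l R x Y = A := by
  obtain ⟨k1, k2, k3⟩ := AA_spec hl h x hY
  rcases lt_trichotomy (AA l R x Y) A with k | k | k
  · exact absurd (k3.trans e.symm) (GG_lt hl h k1 k2 k).ne
  · exact k
  · exact absurd (e.trans k3.symm) (GG_lt hl h h1 h2 k).ne

theorem AA_neg (l R x Y : ℝ) : AA l R (-x) Y = AA l R x Y := by simp only [AA, GG, abs_neg, neg_sq]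

theorem AA_large (hl : 0 < l) (h : l < R) (hY : 0 ≤ Y) (hA : R ≤ A) (e : x ^ 2 + Y = A ^ 2) :
    AA l R x Y = A := by
  have a0 : 0 < A := by linarith
  refine AA_eq hl h hY (by linarith) (abs_le_of_sq_le_sq' (by linarith) a0.le |> abs_le.2) ?_
  rw [GG, EE_large h hA, mul_sub, mul_one, mul_div_cancel₀ _ (by positivity)]
  linarith

theorem ld_GG (hl : 0 < l) (h : l < R) (h1 : l < A) (h2 : |x| ≤ A) :
    IsLocalDiffeomorphAt 𝓘(ℝ, ℝ × ℝ) 𝓘(ℝ, ℝ × ℝ) ∞ (fun p : ℝ × ℝ => (p.1, GG l R p.1 p.2)) (x, A) := by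
  have a0 : 0 < A := hl.trans h1
  have c : ∀ p : ℝ × ℝ, 0 < p.2 → ContDiffAt ℝ ∞ (fun p : ℝ × ℝ => GG l R p.1 p.2) p := fun p hp =>
    ((cd_EE l R).contDiffAt.comp p contDiffAt_snd).mul (contDiffAt_const.sub
      ((contDiffAt_fst.pow 2).div (contDiffAt_snd.pow 2) (pow_ne_zero 2 hp.ne')))
  refine ld_of_injective_mfderiv rfl (isOpen_lt continuous_const continuous_snd) a0
    (fun p hp => (contDiffAt_fst.prodMk (c p hp)).contMDiffAt.contMDiffWithinAt) ?_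
  have d := ((c (x, A) a0).differentiableAt (by simp)).hasFDerivAt
  rw [mfderiv_eq_fderiv, (hasFDerivAt_fst.prodMk d).fderiv]
  refine (injective_iff_map_eq_zero _).2 fun w hw => ?_
  have e1 : w.1 = 0 := congrArg Prod.fst hw
  have e2 : fderiv ℝ (fun p : ℝ × ℝ => GG l R p.1 p.2) (x, A) w = 0 := congrArg Prod.snd hw
  obtain ⟨e, k1, k2⟩ := deriv_EE h A
  have d1 := (d.comp_hasDerivAt A ((hasDerivAt_const A x).prodMk (hasDerivAt_id' A))).unique
    (k2.fun_mul (((hasDerivAt_const A (x ^ 2)).fun_div ((hasDerivAt_id' A).fun_pow 2)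
      (pow_ne_zero 2 a0.ne')).const_sub 1))
  rw [show w = w.2 • ((0 : ℝ), (1 : ℝ)) from Prod.ext (by simp [e1]) (by simp), map_smul, d1] at e2
  refine Prod.ext e1 ((smul_eq_zero.1 e2).resolve_right (ne_of_gt ?_))
  have h3 : 0 ≤ A ^ 2 - x ^ 2 := sub_nonneg.2 (sq_le_sq.2 (h2.trans (le_abs_self _)))
  have h4 := EE_pos hl h h1
  have h5 : 0 < e * A * (A ^ 2 - x ^ 2) + 2 * EE l R A * x ^ 2 := by
    rcases h3.eq_or_lt with k | k
    · rw [← k, ← sub_eq_zero.1 k.symm, mul_zero, zero_add]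
      positivity
    · have : 0 < e := by linarith
      positivity
  convert div_pos h5 (pow_pos a0 3) using 1
  field_simp
  ring

theorem cd_AA {V : Type} [NormedAddCommGroup V] [NormedSpace ℝ V] (hl : 0 < l) (h : l < R) {f g : V → ℝ}
    {z : V} (hf : ContDiffAt ℝ ∞ f z) (hg : ContDiffAt ℝ ∞ g z) (h0 : ∀ y, 0 ≤ g y)
    (h1 : l < AA l R (f z) (g z)) : ContDiffAt ℝ ∞ (fun y => AA l R (f y) (g y)) z := by
  obtain ⟨-, k2, k3⟩ := AA_spec hl h (f z) (h0 z)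
  have L := ld_GG hl h h1 k2
  have c := L.localInverse_contMDiffAt.contDiffAt
  have r := L.localInverse_eventuallyEq_right
  have e := L.localInverse_left_inv L.localInverse_mem_target
  simp only [k3] at c r e
  have c2 := (c.comp z (hf.prodMk hg)).snd
  refine c2.congr_of_eventuallyEq ?_
  filter_upwards [(hf.prodMk hg).continuousAt.eventually r, c2.continuousAt.eventually
    (lt_mem_nhds (a := l) (by simpa [e] using h1))] with y y1 y2
  have e1 : (L.localInverse (f y, g y)).1 = f y := congrArg Prod.fst y1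
  have e2 : GG l R _ (L.localInverse (f y, g y)).2 = g y := congrArg Prod.snd y1
  rw [e1] at e2
  refine AA_eq hl h (h0 y) y2.le ?_ e2
  have := nonneg_of_mul_nonneg_right (e2.symm ▸ h0 y) (EE_pos hl h y2) 
  exact abs_le_of_sq_le_sq' ((div_le_one (pow_pos (hl.trans y2) 2)).1 (sub_nonneg.1 this))
    (hl.trans y2).le |> abs_le.2

/-- `|u|²` -/
def tt (l R x Y : ℝ) : ℝ := (AA l R x Y + x) / (2 * AA l R x Y)

theorem tt_neg (hl : 0 < l) (h : l < R) (x : ℝ) (hY : 0 ≤ Y) : tt l R (-x) Y = 1 - tt l R x Y := by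
  have := hl.trans_le (AA_spec hl h x hY).1
  rw [tt, tt, AA_neg]
  field_simp
  ring

theorem tt_nonneg (hl : 0 < l) (h : l < R) (x : ℝ) (hY : 0 ≤ Y) : 0 ≤ tt l R x Y := by
  obtain ⟨k1, k2, -⟩ := AA_spec hl h x hY
  exact div_nonneg (by linarith [(abs_le.1 k2).1]) (by linarith)

theorem EE_tt (hl : 0 < l) (h : l < R) (x : ℝ) (hY : 0 ≤ Y) :
    4 * EE l R (AA l R x Y) * (tt l R x Y * (1 - tt l R x Y)) = Y := by
  obtain ⟨k1, -, k3⟩ := AA_spec hl h x hY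
  have := hl.trans_le k1
  refine Eq.trans ?_ k3
  rw [tt, GG]
  field_simp
  ring

theorem AA_tt (hl : 0 < l) (h : l < R) (x : ℝ) (hY : 0 ≤ Y) : AA l R x Y * (2 * tt l R x Y - 1) = x := by
  have := hl.trans_le (AA_spec hl h x hY).1
  rw [tt]
  field_simp
  ring

/-- the square of the height in a vertex chart -/
def YY (z : ℂ × ℂ) : ℝ := (2 * ‖z.1‖ * ‖z.2‖) ^ 2

/-- `A` in the vertex chart -/
def Az (l R : ℝ) (z : ℂ × ℂ) : ℝ := AA l R (tm (-l) z) (YY z)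

/-- `t` in the vertex chart -/
def tz (l R : ℝ) (z : ℂ × ℂ) : ℝ := tt l R (tm (-l) z) (YY z)

/-- the prolate coordinate -/
def A1 (l : ℝ) (z : ℂ × ℂ) : ℝ := (‖z.1‖ ^ 2 + ‖z.2‖ ^ 2 + √((tm (-l) z - l) ^ 2 + YY z)) / 2

/-- the chart -/
def FF (l R : ℝ) (z : ℂ × ℂ) : ℂ × ℂ := ((√(tz l R z) : ℝ) * dir z.1, (√(Az l R z - l) : ℝ) * dir z.2)

/-- its domain -/
def UU (l : ℝ) : Set (ℂ × ℂ) := {z | z.2 ≠ 0 ∨ ‖z.1‖ ^ 2 < 2 * l}

variable {z : ℂ × ℂ}

theorem YY_nonneg (z : ℂ × ℂ) : 0 ≤ YY z := sq_nonneg _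

theorem cd_YY : ContDiff ℝ ∞ YY := by
  rw [show YY = fun z => 4 * (‖z.1‖ ^ 2 * ‖z.2‖ ^ 2) from funext fun z => by rw [YY]; ring]
  exact contDiff_const.mul (((contDiff_norm_sq ℝ).comp contDiff_fst).mul ((contDiff_norm_sq ℝ).comp contDiff_snd))

theorem isOpen_UU : IsOpen (UU l) :=
  (isOpen_ne.preimage continuous_snd).union (isOpen_lt (continuous_fst.norm.pow 2) continuous_const)

theorem continuous_A1 : Continuous (A1 l) := by
  have := continuous_tm (-l)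
  have := cd_YY.continuous
  unfold A1
  fun_prop

theorem A1_spec (hl : 0 < l) (h : l < R) (k : A1 l z ≤ (l + R) / 2) : Az l R z = A1 l z ∧
    (Az l R z + l) * tz l R z = ‖z.1‖ ^ 2 ∧ (Az l R z - l) * (1 - tz l R z) = ‖z.2‖ ^ 2 := by
  have h1 := Real.sq_sqrt (add_nonneg (sq_nonneg (tm (-l) z - l)) (YY_nonneg z))
  have h2 := abs_le.1 (Real.abs_le_sqrt (le_add_of_nonneg_right (a := (tm (-l) z - l) ^ 2) (YY_nonneg z)))
  have h3 : tm (-l) z = -l + (‖z.1‖ ^ 2 - ‖z.2‖ ^ 2) := rfl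
  have h4 : YY z = 4 * (‖z.1‖ ^ 2 * ‖z.2‖ ^ 2) := by rw [YY]; ring
  have h5 : 2 * A1 l z = ‖z.1‖ ^ 2 + ‖z.2‖ ^ 2 + √((tm (-l) z - l) ^ 2 + YY z) := by rw [A1]; ring
  have p1 := sq_nonneg ‖z.1‖
  have p2 := sq_nonneg ‖z.2‖
  have e : Az l R z = A1 l z ∧ A1 l z * (‖z.1‖ ^ 2 + ‖z.2‖ ^ 2) = A1 l z ^ 2 + tm (-l) z * l ∧ l ≤ A1 l z := by
    have h6 : l ≤ A1 l z := by linarith [h2.1]
    have h7 : A1 l z * (‖z.1‖ ^ 2 + ‖z.2‖ ^ 2) = A1 l z ^ 2 + tm (-l) z * l := by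
      rw [show √((tm (-l) z - l) ^ 2 + YY z) = 2 * A1 l z - (‖z.1‖ ^ 2 + ‖z.2‖ ^ 2) by linarith, h4] at h1
      rw [h3] at h1 ⊢
      linear_combination (-1 / 4) * h1
    refine ⟨AA_eq hl h (YY_nonneg z) h6 (abs_le.2 ⟨by linarith [h2.1], by linarith [h2.2]⟩) ?_, h7, h6⟩
    have := hl.trans_le h6
    rw [GG, EE_small h k, h4]
    field_simp
    rw [h3] at h7 ⊢
    linear_combination (-(A1 l z * (‖z.1‖ ^ 2 + ‖z.2‖ ^ 2) + (A1 l z ^ 2 + (-l + (‖z.1‖ ^ 2 - ‖z.2‖ ^ 2)) * l))) * h7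
  obtain ⟨e1, e2, e3⟩ := e
  have := hl.trans_le e3
  refine ⟨e1, ?_, ?_⟩ <;> rw [tz, tt, ← Az, e1] <;> field_simp <;> rw [h3] at e2 ⊢
  · linear_combination (-1) * e2
  · linear_combination (-1) * e2

theorem A1_zero (hz : z ∈ UU l) (e : z.2 = 0) : A1 l z = l := by
  have := hz.resolve_left fun k => k e
  rw [A1, YY, tm, e, norm_zero, mul_zero, zero_pow two_ne_zero, add_zero, add_zero,
    Real.sqrt_sq_eq_abs, abs_of_neg (by linarith)]
  ring

theorem ev_A1 (h : l < R) (hz : z ∈ UU l) (e : z.2 = 0) : ∀ᶠ y in 𝓝 z, A1 l y ≤ (l + R) / 2 :=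
  (continuous_A1.continuousAt.eventually_lt continuousAt_const (by rw [A1_zero hz e]; linarith)).mono
    fun _ => le_of_lt

theorem lt_Az (hl : 0 < l) (h : l < R) (e : z.2 ≠ 0) : l < Az l R z := by
  obtain ⟨k1, k2, k3⟩ := AA_spec hl h (tm (-l) z) (YY_nonneg z)
  refine k1.lt_of_ne fun k => ?_
  have h1 := norm_pos_iff.2 e
  rw [← k] at k2 k3
  rw [GG, EE_self h, zero_mul, YY, eq_comm, sq_eq_zero_iff, mul_eq_zero, mul_eq_zero] at k3
  have h2 : ‖z.1‖ = 0 := (k3.resolve_right h1.ne').resolve_left two_ne_zero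
  have := (abs_le.1 k2).1
  rw [tm, h2] at this
  nlinarith

theorem tz_lt (hl : 0 < l) (h : l < R) (hz : z ∈ UU l) : tz l R z < 1 := by
  have h1 := tt_nonneg hl h (-tm (-l) z) (YY_nonneg z)
  rw [tt_neg hl h _ (YY_nonneg z), sub_nonneg] at h1
  refine h1.lt_of_ne fun k => ?_
  have h2 := EE_tt hl h (tm (-l) z) (YY_nonneg z)
  have h3 := AA_tt hl h (tm (-l) z) (YY_nonneg z)
  have h4 := (AA_spec hl h (tm (-l) z) (YY_nonneg z)).1
  rw [k] at h2 h3
  rw [show AA l R (tm (-l) z) (YY z) = tm (-l) z by linarith, tm] at h4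
  rw [sub_self, mul_zero, mul_zero, YY, eq_comm, sq_eq_zero_iff, mul_eq_zero, mul_eq_zero] at h2
  rcases h2 with (e | e) | e
  · exact two_ne_zero e
  · rw [e] at h4
    nlinarith [sq_nonneg ‖z.2‖]
  · have := hz.resolve_left fun k => k (norm_eq_zero.1 e)
    nlinarith [sq_nonneg ‖z.2‖]

theorem cd_Az (hl : 0 < l) (h : l < R) (hz : z ∈ UU l) : ContDiffAt ℝ ∞ (Az l R) z := by
  have c := (Tb.contDiff_tm (-l)).contDiffAt (x := z)
  by_cases e : z.2 = 0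
  · have := hz.resolve_left fun k => k e
    refine ContDiffAt.congr_of_eventuallyEq (f := A1 l) ?_ ((ev_A1 h hz e).mono fun y hy => (A1_spec hl h hy).1)
    refine ((((contDiff_norm_sq ℝ).comp contDiff_fst).add ((contDiff_norm_sq ℝ).comp contDiff_snd)).contDiffAt.add
      ((((c.sub contDiffAt_const).pow 2).add cd_YY.contDiffAt).sqrt (ne_of_gt ?_))).div_const 2
    refine add_pos_of_pos_of_nonneg (sq_pos_of_neg ?_) (YY_nonneg z)
    rw [tm]
    nlinarith [sq_nonneg ‖z.2‖]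
  · exact cd_AA hl h c cd_YY.contDiffAt YY_nonneg (lt_Az hl h e)

theorem Az_pos (hl : 0 < l) (h : l < R) (z : ℂ × ℂ) : 0 < Az l R z :=
  hl.trans_le (AA_spec hl h _ (YY_nonneg z)).1

theorem cd_tz (hl : 0 < l) (h : l < R) (hz : z ∈ UU l) : ContDiffAt ℝ ∞ (tz l R) z :=
  ((cd_Az hl h hz).add (Tb.contDiff_tm (-l)).contDiffAt).div (contDiffAt_const.mul (cd_Az hl h hz))
    (mul_pos two_pos (Az_pos hl h z)).ne'

theorem sqrt_dir {t c : ℝ} {w : ℂ} (hc : 0 < c) (e : c * t = ‖w‖ ^ 2) :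
    (√t : ℝ) * (dir w : ℂ) = (√c)⁻¹ • w := by
  rw [show t = ‖w‖ ^ 2 / c by field_simp; linarith, Real.sqrt_div' _ hc.le, Real.sqrt_sq (norm_nonneg _),
    div_eq_inv_mul, Complex.ofReal_mul, mul_assoc, norm_mul_dir, Complex.real_smul]

theorem norm_sqrt_dir {t : ℝ} (ht : 0 ≤ t) (u : Circle) : ‖(√t : ℝ) * (u : ℂ)‖ ^ 2 = t := by
  rw [norm_polar (Real.sqrt_nonneg _), Real.sq_sqrt ht]

theorem norm_FF1 (hl : 0 < l) (h : l < R) (z : ℂ × ℂ) : ‖(FF l R z).1‖ ^ 2 = tz l R z :=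
  norm_sqrt_dir (tt_nonneg hl h _ (YY_nonneg z)) _

theorem norm_FF2 (hl : 0 < l) (h : l < R) (z : ℂ × ℂ) : ‖(FF l R z).2‖ ^ 2 + l = Az l R z :=
  eq_sub_iff_add_eq.1 (norm_sqrt_dir (sub_nonneg.2 (AA_spec hl h _ (YY_nonneg z)).1) _)

theorem FF_near (hl : 0 < l) (h : l < R) (hz : z ∈ UU l) (k : A1 l z ≤ (l + R) / 2) :
    FF l R z = ((√(Az l R z + l))⁻¹ • z.1, (√(1 - tz l R z))⁻¹ • z.2) :=
  Prod.ext (sqrt_dir (add_pos (Az_pos hl h z) hl) (A1_spec hl h k).2.1)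
    (sqrt_dir (sub_pos.2 (tz_lt hl h hz)) ((mul_comm _ _).trans (A1_spec hl h k).2.2))

theorem far_pos (hl : 0 < l) (h : l < R) (e : z.2 ≠ 0) : 0 < EE l R (Az l R z) * (1 - tz l R z) :=
  mul_pos (EE_pos hl h (lt_Az hl h e)) (sub_pos.2 (tz_lt hl h (Or.inl e)))

theorem FF_far (hl : 0 < l) (h : l < R) (e : z.2 ≠ 0) :
    (FF l R z).1 = (√(EE l R (Az l R z) * (1 - tz l R z) / ‖z.2‖ ^ 2))⁻¹ • z.1 := by
  have h1 := norm_pos_iff.2 e
  refine sqrt_dir (div_pos (far_pos hl h e) (by positivity)) ?_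
  have h2 : 4 * EE l R (Az l R z) * (tz l R z * (1 - tz l R z)) = (2 * ‖z.1‖ * ‖z.2‖) ^ 2 :=
    EE_tt hl h _ (YY_nonneg z)
  field_simp
  linarith

theorem cd_FF (hl : 0 < l) (h : l < R) (hz : z ∈ UU l) : ContDiffAt ℝ ∞ (FF l R) z := by
  have c1 := cd_Az hl h hz
  have c2 := contDiffAt_const.sub (cd_tz hl h hz) (f := fun _ => 1)
  have k : ∀ {f : ℂ × ℂ → ℝ}, ContDiffAt ℝ ∞ f z → 0 < f z → ContDiffAt ℝ ∞ (fun y => (√(f y))⁻¹) z :=
    fun a b => (a.sqrt b.ne').inv (Real.sqrt_pos.2 b).ne'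
  by_cases e : z.2 = 0
  · refine (((k (c1.add contDiffAt_const) (add_pos (Az_pos hl h z) hl)).smul contDiffAt_fst).prodMk
      ((k c2 (sub_pos.2 (tz_lt hl h hz))).smul contDiffAt_snd)).congr_of_eventuallyEq ?_
    filter_upwards [isOpen_UU.mem_nhds hz, ev_A1 h hz e] with y y1 y2 using FF_near hl h y1 y2
  · have h1 := pow_pos (norm_pos_iff.2 e) 2
    refine ContDiffAt.prodMk (((k ((((cd_EE l R).contDiffAt.comp z c1).mul c2).div
      ((contDiff_norm_sq ℝ).comp contDiff_snd).contDiffAt h1.ne') (div_pos (far_pos hl h e) h1)).smul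
      contDiffAt_fst).congr_of_eventuallyEq ?_) ((Complex.ofRealCLM.contDiff.contDiffAt.comp z
        ((c1.sub contDiffAt_const).sqrt (sub_pos.2 (lt_Az hl h e)).ne')).mul
        (cm_coe (cm_dir contDiffAt_snd.contMDiffAt e)).contDiffAt)
    filter_upwards [(isOpen_ne.preimage continuous_snd).mem_nhds e] with y hy using FF_far hl h hy

theorem ld_left {E H N : Type} [NormedAddCommGroup E] [NormedSpace ℝ E] [TopologicalSpace H]
    {J : ModelWithCorners ℝ E H} [TopologicalSpace N] [ChartedSpace H N] {f : ℂ × ℂ → ℂ × ℂ}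
    {s : Set (ℂ × ℂ)} (hs : IsOpen s) (hz : z ∈ s) (hf : ∀ y ∈ s, ContDiffAt ℝ ∞ f y) {g k : ℂ × ℂ → N}
    (hg : ContMDiffAt IV J ∞ g (f z)) (hk : IsLocalDiffeomorphAt IV J ∞ k z) (e : k =ᶠ[𝓝 z] g ∘ f) :
    IsLocalDiffeomorphAt IV IV ∞ f z := by
  refine ld_of_injective_mfderiv rfl hs hz (fun y hy => (hf y hy).contMDiffAt.contMDiffWithinAt) ?_
  have h1 : Injective (mfderiv IV J k z) := (hk.mfderivToContinuousLinearEquiv (by simp)).injective
  rw [e.mfderiv_eq, mfderiv_comp z (hg.mdifferentiableAt (by simp))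
    ((hf z hz).contMDiffAt.mdifferentiableAt (by simp))] at h1
  exact Injective.of_comp h1

theorem ld_FF (hl : 0 < l) (h : l < R) (hz : z ∈ UU l) : IsLocalDiffeomorphAt IV IV ∞ (FF l R) z := by
  have n1 : ContDiff ℝ ∞ fun q : ℂ × ℂ => ‖q.1‖ ^ 2 := (contDiff_norm_sq ℝ).comp contDiff_fst
  have n2 : ContDiff ℝ ∞ fun q : ℂ × ℂ => ‖q.2‖ ^ 2 + l := ((contDiff_norm_sq ℝ).comp contDiff_snd).add contDiff_const
  by_cases e : z.2 = 0
  · refine ld_left isOpen_UU hz (fun _ => cd_FF hl h) (J := IV)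
      (g := fun q => (√(‖q.2‖ ^ 2 + l + l) • q.1, √(1 - ‖q.1‖ ^ 2) • q.2)) (ContDiffAt.contMDiffAt ?_) (ld_id z) ?_
    · refine (((n2.contDiffAt.add contDiffAt_const).sqrt (by positivity)).smul contDiffAt_fst).prodMk
        (((contDiffAt_const.sub n1.contDiffAt).sqrt ?_).smul contDiffAt_snd)
      rw [norm_FF1 hl h]
      exact (sub_pos.2 (tz_lt hl h hz)).ne'
    · filter_upwards [isOpen_UU.mem_nhds hz, ev_A1 h hz e] with y y1 y2
      simp only [comp_apply, norm_FF1 hl h, norm_FF2 hl h]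
      rw [FF_near hl h y1 y2, smul_inv_smul₀ (Real.sqrt_pos.2 (add_pos (Az_pos hl h y) hl)).ne',
        smul_inv_smul₀ (Real.sqrt_pos.2 (sub_pos.2 (tz_lt hl h y1))).ne']
      rfl
  · refine ld_left isOpen_UU hz (fun _ => cd_FF hl h) (J := IR)
      (g := fun q => ((dir q.2, (2 * √(EE l R (‖q.2‖ ^ 2 + l) * (1 - ‖q.1‖ ^ 2))) • q.1),
        (‖q.2‖ ^ 2 + l) * (2 * ‖q.1‖ ^ 2 - 1))) ?_ (ld_hL (c := -l) e) ?_
    · refine ((cm_dir contDiffAt_snd.contMDiffAt ?_).prodMk (ContDiffAt.contMDiffAt ((contDiffAt_const.mul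
        ((((cd_EE l R).comp n2).mul (contDiff_const.sub n1)).contDiffAt.sqrt ?_)).smul contDiffAt_fst))).prodMk
        (n2.mul ((contDiff_const.mul n1).sub contDiff_const)).contDiffAt.contMDiffAt
      · exact mul_ne_zero (Complex.ofReal_ne_zero.2 (Real.sqrt_pos.2 (sub_pos.2 (lt_Az hl h e))).ne')
          (Circle.coe_ne_zero _)
      · simp only [comp_apply, norm_FF1 hl h, norm_FF2 hl h]
        exact (far_pos hl h e).ne'
    · filter_upwards [(isOpen_ne.preimage continuous_snd).mem_nhds e] with y hy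
      simp only [comp_apply, norm_FF1 hl h, norm_FF2 hl h]
      refine Prod.ext (Prod.ext (dir_mul (Real.sqrt_pos.2 (sub_pos.2 (lt_Az hl h hy))) _).symm ?_)
        (AA_tt hl h _ (YY_nonneg y)).symm
      have := (Real.sqrt_pos.2 (far_pos hl h hy)).ne'
      rw [FF_far hl h hy, Real.sqrt_div' _ (sq_nonneg _), Real.sqrt_sq (norm_nonneg _), smul_smul, inv_div,
        mul_assoc, mul_div_cancel₀ _ this]
      rfl

theorem oV_eq (z : ℂ × ℂ) : oV z = io (Complex.reLm ∘ₗ LinearMap.fst ℝ ℂ ℂ) * io (Complex.imLm ∘ₗ LinearMap.fst ℝ ℂ ℂ) *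
    (io (Complex.reLm ∘ₗ LinearMap.snd ℝ ℂ ℂ) * io (Complex.imLm ∘ₗ LinearMap.snd ℝ ℂ ℂ)) := by
  simp only [oV, pr, px, oZ_eq, map_mul, pb_io]

theorem pos_swap (s : Set (ℂ × ℂ)) : Pos IV IV Prod.swap s oV oV := by
  refine pos_of_eq (c := fun _ => 1) (oriOn ori_oV _) (fun _ _ => one_pos) fun y _ => ?_
  rw [pm_apply, mf_eq_fderiv, show (Prod.swap : ℂ × ℂ → ℂ × ℂ) = ContinuousLinearEquiv.prodComm ℝ ℂ ℂ from rfl,
    ContinuousLinearEquiv.fderiv, oV_eq, oV_eq, one_smul]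
  simp only [map_mul, pb_io]
  change io (Complex.reLm ∘ₗ LinearMap.snd ℝ ℂ ℂ) * io (Complex.imLm ∘ₗ LinearMap.snd ℝ ℂ ℂ) *
    (io (Complex.reLm ∘ₗ LinearMap.fst ℝ ℂ ℂ) * io (Complex.imLm ∘ₗ LinearMap.fst ℝ ℂ ℂ)) = _
  generalize Complex.reLm ∘ₗ LinearMap.snd ℝ ℂ ℂ = a, Complex.imLm ∘ₗ LinearMap.snd ℝ ℂ ℂ = b,
    Complex.reLm ∘ₗ LinearMap.fst ℝ ℂ ℂ = c, Complex.imLm ∘ₗ LinearMap.fst ℝ ℂ ℂ = d
  have k : ∀ e : Module.Dual ℝ (ℂ × ℂ), io e * (io c * io d) = io c * io d * io e := fun e => by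
    rw [← mul_assoc, io_anti e c, neg_mul, mul_assoc, io_anti e d, mul_neg, neg_neg, mul_assoc]
  rw [mul_assoc, k, ← mul_assoc, k, mul_assoc]

theorem pos_diag {α β : ℂ × ℂ → ℝ} (hα : DifferentiableAt ℝ α 0) (hβ : DifferentiableAt ℝ β 0)
    (h1 : 0 < α 0) (h2 : 0 < β 0) : Pos IV IV (fun z => (α z • z.1, β z • z.2)) {0} oV oV := by
  refine pos_of_eq (c := fun _ => α 0 ^ 2 * β 0 ^ 2) (oriOn ori_oV _) (fun _ _ => by positivity) ?_
  rintro _ rfl
  rw [pm_apply, mf_eq_fderiv, ((hα.hasFDerivAt.fun_smul hasFDerivAt_fst).prodMk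
    (hβ.hasFDerivAt.fun_smul hasFDerivAt_snd)).fderiv, oV_eq, oV_eq]
  simp only [map_mul, pb_io]
  have k : ∀ (m : Module.Dual ℝ ℂ) (L : ℂ × ℂ →L[ℝ] ℂ × ℂ), (∀ w, L w = (α 0 • w.1, β 0 • w.2)) →
      (m ∘ₗ LinearMap.fst ℝ ℂ ℂ) ∘ₗ (L : ℂ × ℂ →ₗ[ℝ] ℂ × ℂ) = α 0 • (m ∘ₗ LinearMap.fst ℝ ℂ ℂ) ∧
      (m ∘ₗ LinearMap.snd ℝ ℂ ℂ) ∘ₗ (L : ℂ × ℂ →ₗ[ℝ] ℂ × ℂ) = β 0 • (m ∘ₗ LinearMap.snd ℝ ℂ ℂ) := fun m L e =>
    ⟨LinearMap.ext fun w => (congrArg (fun q => m q.1) (e w)).trans (m.map_smul _ _),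
      LinearMap.ext fun w => (congrArg (fun q => m q.2) (e w)).trans (m.map_smul _ _)⟩
  rw [(k _ _ fun w => by simp).1, (k _ _ fun w => by simp).1, (k _ _ fun w => by simp).2,
    (k _ _ fun w => by simp).2]
  simp only [map_smul, smul_mul_smul_comm, sq]

theorem pos_FF (hl : 0 < l) (h : l < R) : Pos IV IV (FF l R) (UU l) oV oV := by
  have z0 : (0 : ℂ × ℂ) ∈ UU l := Or.inr (by simpa using hl)
  refine pos_of_pt (u := univ) ?_ (oriOn ori_oV _) (oriOn ori_oV _) (fun _ => ld_FF hl h) (mapsTo_univ _ _) z0 ?_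
  · have := (isPreconnected_univ.prod conn_ne).union ((0, 1) : ℂ × ℂ) (mk_mem_prod (mem_univ _) one_ne_zero)
      (t := Metric.ball 0 √(2 * l) ×ˢ univ) ⟨Metric.mem_ball_self (by positivity), trivial⟩
      ((convex_ball _ _).isPreconnected.prod isPreconnected_univ)
    convert this using 1
    ext z
    simp [UU, -Real.sqrt_mul', -Real.sqrt_mul, Real.lt_sqrt]
  · refine (pos_diag (α := fun y => (√(Az l R y + l))⁻¹) (β := fun y => (√(1 - tz l R y))⁻¹) ?_ ?_ ?_ ?_).congr' ?_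
    · exact ((((cd_Az hl h z0).differentiableAt (by simp)).add_const l).sqrt (add_pos (Az_pos hl h _) hl).ne').inv
        (Real.sqrt_pos.2 (add_pos (Az_pos hl h _) hl)).ne'
    · exact ((((cd_tz hl h z0).differentiableAt (by simp)).const_sub 1).sqrt (sub_pos.2 (tz_lt hl h z0)).ne').inv
        (Real.sqrt_pos.2 (sub_pos.2 (tz_lt hl h z0))).ne'
    · exact inv_pos.2 (Real.sqrt_pos.2 (add_pos (Az_pos hl h _) hl))
    · exact inv_pos.2 (Real.sqrt_pos.2 (sub_pos.2 (tz_lt hl h z0)))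
    · rintro _ rfl
      filter_upwards [isOpen_UU.mem_nhds z0, ev_A1 h z0 rfl] with y y1 y2 using FF_near hl h y1 y2

end Crest.Agent.X212.Rod19
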